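import Vale.Agent.P199L24.Main

namespace Vale.Agent.Results.P199.ALocallyFinite

open Vale.Agent.P199L Cardinal

/-- Kurosh's problem for division rings, in the terms of the problem: Q1 and Kurosh's formulation
are false; counterexamples exist with center containing any countable field of characteristic
different from two; for `D` algebraic over its center, subalgebras are division rings and
`F[S] = F(S)`. -/
theorem result :
    ¬ Q1 ∧ ¬ Kurosh ∧
    (∀ (k₀ : Type) [Field k₀] [Countable k₀], (2 : k₀) ≠ 0 →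
      ∃ (D : Type) (_ : DivisionRing D) (_ : k₀ →+* Z D) (x y : D),
        (∀ a : D, IsAlgebraic (Z D) a) ∧ divGen D {x, y} = ⊤ ∧ ℵ₀ ≤ deg D {x, y}) ∧
    ∀ (D : Type) [DivisionRing D], (∀ a : D, IsAlgebraic (Z D) a) →
      (∀ A : Subalgebra (Z D) D, ∀ a ∈ A, a⁻¹ ∈ A) ∧
        ∀ S : Set D, Algebra.adjoin (Z D) S = FS D S :=
  ⟨not_q1, not_kurosh, every', fun _ _ h => ⟨inv_mem h, adjoin_eq h⟩⟩

end Vale.Agent.Results.P199.ALocallyFinite
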